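import Vale.Agent.P157.Full.SlotStep

/-!
Field slots over an arbitrary disorder: bounds, and the gain of one more slot.
-/

noncomputable section

open MeasureTheory ProbabilityTheory Filter
open scoped BigOperators Topology

namespace Vale.Agent.P166.Haar2.Slots

set_option linter.unusedSectionVars false

open Vale.Agent.P157 (gam)
open Vale.Agent.P157.Parisi
open Vale.Agent.P157.Parisi.Full (slotX slotW slotLaw slotDir tailSum slotDir_mono slotDir_nonneg
  slotDir_le_one slotDir_last fieldLen_slotDir abs_slotX_le measurable_slotX)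
open Vale.Agent.P168 (genNested)
open Vale.Agent.P168.Cascade
open Vale.Agent.P168.Upper (integral_mp genNested_map genNested_bounds)

variable {Dd : Type} [MeasurableSpace Dd] {r N T : ℕ} {P : Sphere.Pts N}

/-- A measurable and integrable Hamiltonian. -/
structure HOK (π : Measure Dd) (H : Dd → Sphere.Conf P → ℝ) : Prop where
  meas : ∀ σ, Measurable fun d => H d σ
  int : ∀ σ, Integrable (fun d => H d σ) π

/-- A bound of the exponent of the weights. -/
def hBd (H : Dd → Sphere.Conf P → ℝ) (δ a : ℝ) (T : ℕ) (d : Dd) : ℝ :=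
  (∑ σ : Sphere.Conf P, |H d σ|) + T * (Real.sqrt δ * (N * |a|))

variable {π : Measure Dd} [IsProbabilityMeasure π] {H : Dd → Sphere.Conf P → ℝ} {δ a : ℝ}

lemma measurable_hBd (hH : HOK π H) (δ a : ℝ) (T : ℕ) : Measurable (hBd H δ a T) :=
  (Finset.measurable_sum _ fun σ _ => (hH.meas σ).abs).add_const _

lemma integrable_hBd (hH : HOK π H) (δ a : ℝ) (T : ℕ) : Integrable (hBd H δ a T) π :=
  (integrable_finsetSum _ fun σ _ => (hH.int σ).abs).add (integrable_const _)

variable {m : Fin r → ℝ}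

lemma hBd_nonneg (d : Dd) : 0 ≤ hBd H δ a T d := by
  unfold hBd; positivity

lemma abs_exponent_le (ha : 0 ≤ a) (ks : Fin T → Fin (r + 1)) (d : Dd)
    (E : Fin T → Fin N → ℝ) (σ : Sphere.Conf P) (η : Fin r → Fin T → Fin N → ℝ) :
    |H d σ + slotX δ a ks E σ η| ≤ hBd H δ a T d := by
  refine (abs_add_le _ _).trans (add_le_add (Finset.single_le_sum
    (f := fun τ => |H d τ|) (fun τ _ => abs_nonneg _) (Finset.mem_univ σ)) ?_)
  rw [abs_of_nonneg ha]
  exact abs_slotX_le ha ks E σ η

lemma wbdd_slotW (ha : 0 ≤ a) (ks : Fin T → Fin (r + 1)) (d : Dd)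
    (E : Fin T → Fin N → ℝ) :
    Sphere.Up.WBdd (Real.exp (hBd H δ a T d) * P.K)
      (slotW δ a ks (H d) E) := fun σ => by
  have hK := Sphere.Main.K_pos P
  refine ⟨mul_pos (Real.exp_pos _) hK, ?_, fun η => ?_⟩
  · exact (((measurable_slotX δ a ks σ).comp measurable_prodMk_left).const_add _).exp.div_const _
  obtain ⟨h1, h2⟩ := abs_le.1 (abs_exponent_le (δ := δ) (H := H) ha ks d E σ η)
  have hK1 : (1 : ℝ) ≤ P.K := by exact_mod_cast P.pos
  refine ⟨?_, ?_⟩
  · rw [mul_inv, ← Real.exp_neg, ← div_eq_mul_inv]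
    exact div_le_div_of_nonneg_right (Real.exp_le_exp.2 h1) hK.le
  · exact (div_le_self (Real.exp_pos _).le hK1).trans
      ((Real.exp_le_exp.2 h2).trans (le_mul_of_one_le_right (Real.exp_pos _).le hK1))

lemma bdd_slotW_sum (ha : 0 ≤ a) (ks : Fin T → Fin (r + 1)) (d : Dd)
    (E : Fin T → Fin N → ℝ) :
    Bdd (Real.exp (hBd H δ a T d))
      fun η => ∑ σ, slotW δ a ks (H d) E σ η := by
  have hK := Sphere.Main.K_pos P
  refine ⟨Real.exp_pos _, Finset.measurable_sum _ fun σ _ => (wbdd_slotW ha ks d E σ).meas,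
    fun η => ?_⟩
  have hc : ∀ b : ℝ, (∑ _σ : Sphere.Conf P, Real.exp b / P.K) = Real.exp b := fun b => by
    rw [Finset.sum_const, Finset.card_univ, Sphere.Main.card_conf, nsmul_eq_mul]
    field_simp
  rw [← Real.exp_neg, ← hc (-_), ← hc (hBd H δ a T d)]
  exact ⟨Finset.sum_le_sum fun σ _ => div_le_div_of_nonneg_right
      (Real.exp_le_exp.2 (abs_le.1 (abs_exponent_le ha ks d E σ η)).1) hK.le,
    Finset.sum_le_sum fun σ _ => div_le_div_of_nonneg_right
      (Real.exp_le_exp.2 (abs_le.1 (abs_exponent_le ha ks d E σ η)).2) hK.le⟩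

lemma measW_slotW (hH : HOK π H) (δ a : ℝ) (ks : Fin T → Fin (r + 1)) :
    Sphere.Up.MeasW fun (z : Dd × (Fin T → Fin N → ℝ)) =>
      slotW δ a ks (H z.1) z.2 := fun σ =>
  (((hH.meas σ).comp (measurable_fst.comp measurable_fst)).add
    ((measurable_slotX δ a ks σ).comp
      ((measurable_snd.comp measurable_fst).prodMk measurable_snd))).exp.div_const _

/-- The free energy at given disorder and root variables. -/
def gPhi (H : Dd → Sphere.Conf P → ℝ) (δ a : ℝ) (m : Fin r → ℝ) (ks : Fin T → Fin (r + 1)) (z : Dd × (Fin T → Fin N → ℝ)) : ℝ :=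
  Sphere.Up.Phi (slotLaw T N) m (slotW δ a ks (H z.1) z.2)

lemma abs_gPhi_le (ha : 0 ≤ a) (hm : Exps m) (ks : Fin T → Fin (r + 1))
    (z : Dd × (Fin T → Fin N → ℝ)) :
    |gPhi H δ a m ks z| ≤ hBd H δ a T z.1 := by
  obtain ⟨h0, h1, h2⟩ := bdd_slotW_sum (δ := δ) (H := H) ha ks z.1 z.2
  have h := genNested_mem (slotLaw T N) h0 hm h1 h2
  have := abs_log_le h0 h.1 h.2
  rwa [Real.log_exp, abs_of_nonneg (hBd_nonneg _)] at this

lemma measurable_gPhi (hH : HOK π H) (δ a : ℝ) (m : Fin r → ℝ)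
    (ks : Fin T → Fin (r + 1)) :
    Measurable (gPhi H δ a m ks) :=
  Sphere.Up.measurable_Phi _ m (measW_slotW hH δ a ks)

lemma integrable_gPhi (hH : HOK π H) (ha : 0 ≤ a) (hm : Exps m)
    (ks : Fin T → Fin (r + 1)) :
    Integrable (gPhi H δ a m ks) (π.prod (slotLaw T N)) :=
  ((integrable_hBd hH δ a T).comp_fst _).mono'
    (measurable_gPhi hH δ a m ks).aestronglyMeasurable
    (Eventually.of_forall fun z => by rw [Real.norm_eq_abs]; exact abs_gPhi_le ha hm ks z)

/-- The overlap at given disorder and root variables. -/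
def gB (H : Dd → Sphere.Conf P → ℝ) (δ a : ℝ) (m : Fin r → ℝ) (ks : Fin T → Fin (r + 1)) (k : Fin (r + 1)) (z : Dd × (Fin T → Fin N → ℝ)) : ℝ :=
  tailSum m (fun p => Sphere.Up.bVal (slotLaw T N) m
    (slotW δ a ks (H z.1) z.2) p) k

lemma abs_gB_le (ha : 0 ≤ a) (hm : Exps m) (ks : Fin T → Fin (r + 1)) (k : Fin (r + 1))
    (z : Dd × (Fin T → Fin N → ℝ)) : |gB H δ a m ks k z| ≤ N := by
  simp only [gB, tailSum]
  refine (Finset.abs_sum_le_sum_abs _ _).trans ?_
  calc ∑ p, |slotDir k p * (weight m p * Sphere.Up.bVal (slotLaw T N) m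
        (slotW δ a ks (H z.1) z.2) p)| ≤ ∑ p : Fin (r + 1), weight m p * (N : ℝ) :=
      Finset.sum_le_sum fun p _ => by
        rw [abs_mul, abs_mul, abs_of_nonneg (slotDir_nonneg k p),
          abs_of_nonneg (Up.weight_nonneg hm p)]
        exact (mul_le_of_le_one_left (mul_nonneg (Up.weight_nonneg hm p) (abs_nonneg _))
          (slotDir_le_one k p)).trans (mul_le_mul_of_nonneg_left
            (Sphere.Up.abs_bVal_le _ hm (wbdd_slotW ha ks _ _) p) (Up.weight_nonneg hm p))
    _ = N := by rw [← Finset.sum_mul, Up.sum_weight, one_mul]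

lemma measurable_gB (hH : HOK π H) (δ a : ℝ) (m : Fin r → ℝ) (ks : Fin T → Fin (r + 1)) (k : Fin (r + 1)) :
    Measurable (gB H δ a m ks k) := by
  have hw := fun σ => (measW_slotW hH δ a ks σ)
  unfold gB tailSum
  refine Finset.measurable_sum _ fun p _ => Measurable.const_mul
    (Measurable.const_mul ?_ (weight m p)) (slotDir k p)
  refine Finset.measurable_sum _ fun i _ => Up.measurable_pairM _ m
    (Finset.measurable_sum _ fun σ _ => hw σ) ?_ ?_ p <;>
  exact Finset.measurable_sum (f := fun σ => fun z : (Dd × (Fin T → Fin N → ℝ)) ×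
      (Fin r → Fin T → Fin N → ℝ) =>
      slotW δ a ks (H z.1.1) z.1.2 σ z.2 * Sphere.unitVec σ i)
    Finset.univ fun σ _ => (hw σ).mul_const (Sphere.unitVec σ i)

lemma integrable_gB (hH : HOK π H) (ha : 0 ≤ a) (hm : Exps m) (ks : Fin T → Fin (r + 1))
     (k : Fin (r + 1)) :
    Integrable (gB H δ a m ks k) (π.prod (slotLaw T N)) :=
  Integrable.of_bound (measurable_gB hH δ a m ks k).aestronglyMeasurable N
    (Eventually.of_forall fun z => by rw [Real.norm_eq_abs]; exact abs_gB_le ha hm ks k z)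

/-- The free energy with slots. -/
def gFree (π : Measure Dd) (H : Dd → Sphere.Conf P → ℝ) (δ a : ℝ) (m : Fin r → ℝ)
    (ks : Fin T → Fin (r + 1)) : ℝ :=
  ∫ z, gPhi H δ a m ks z ∂π.prod (slotLaw T N)

/-- The overlap on the levels from `k` on, with slots. -/
def gOver (π : Measure Dd) (H : Dd → Sphere.Conf P → ℝ) (δ a : ℝ) (m : Fin r → ℝ)
    (ks : Fin T → Fin (r + 1)) (k : Fin (r + 1)) : ℝ :=
  ∫ z, gB H δ a m ks k z ∂π.prod (slotLaw T N)

/-- One more slot over an arbitrary disorder. -/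
theorem slot_step_gen (hH : HOK π H) (hN : N ≠ 0) (hm : Exps m) (hδ : 0 ≤ δ) (ha : 0 ≤ a)
    (hsmall : Real.sqrt δ * (N * a) ≤ 1 / 10) (ks : Fin T → Fin (r + 1)) (k : Fin (r + 1)) :
    gFree π H δ a m ks + Up.svar a * δ / 2 * (N * (1 - gOver π H δ a m ks k)) -
        20 * (Real.sqrt δ * (N * a)) ^ 3 ≤
      gFree π H δ a m (Fin.cons k ks) := by
  set ν := π.prod (slotLaw T N)
  have hsplit : MeasurePreserving (fun E : Fin (T + 1) → Fin N → ℝ => (E 0, fun j : Fin T => E j.succ))
      (slotLaw (T + 1) N) ((gam (Fin N)).prod (slotLaw T N)) :=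
    measurePreserving_piFinSuccAbove (fun _ : Fin (T + 1) => gam (Fin N)) 0
  have hmap : MeasurePreserving
      (fun E : Fin (T + 1) → Fin N → ℝ => ((fun j : Fin T => E j.succ), E 0))
      (slotLaw (T + 1) N) ((slotLaw T N).prod (gam (Fin N))) :=
    Measure.measurePreserving_swap.comp hsplit
  set G : Dd × (Fin (T + 1) → Fin N → ℝ) → ℝ := gPhi H δ a m (Fin.cons k ks)
  have hG : ∀ (z : Dd × (Fin T → Fin N → ℝ)) (e : Fin N → ℝ),
      Sphere.Up.Phi ((slotLaw T N).prod (gam (Fin N))) m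
        (Sphere.Up.tens (slotW δ a ks (H z.1) z.2)
          (Sphere.Up.fieldZ δ a (slotDir k) e)) = G (z.1, Fin.cons e z.2) := fun z e => by
    simp only [G, gPhi, Sphere.Up.Phi]
    congr 1
    rw [← genNested_map (slotLaw (T + 1) N) ((slotLaw T N).prod (gam (Fin N))) hmap m _
      (Sphere.Up.bdd_sum (Sphere.Up.wbdd_field (δ := δ) ha (slotDir k) (wbdd_slotW ha ks z.1 z.2) e)).meas]
    congr 1
    funext η
    refine Finset.sum_congr rfl fun σ _ => ?_
    simp only [Sphere.Up.tens, slotW, slotX, Sphere.Up.fieldZ, Fin.sum_univ_succ, Fin.cons_zero,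
      Fin.cons_succ, Real.exp_add]
    ring
  have hGi : Integrable G (π.prod (slotLaw (T + 1) N)) :=
    integrable_gPhi hH ha hm _
  -- the split of the variables
  have hcons : MeasurePreserving
      (fun z : (Dd × (Fin T → Fin N → ℝ)) × (Fin N → ℝ) =>
        (z.1.1, (Fin.cons z.2 z.1.2 : Fin (T + 1) → Fin N → ℝ)))
      (ν.prod (gam (Fin N))) (π.prod (slotLaw (T + 1) N)) := by
    have h := (measurePreserving_piFinSuccAbove (fun _ : Fin (T + 1) => gam (Fin N)) 0).symm
    have h2 : MeasurePreserving (fun w : (Fin T → Fin N → ℝ) × (Fin N → ℝ) =>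
        (Fin.cons w.2 w.1 : Fin (T + 1) → Fin N → ℝ))
        ((slotLaw T N).prod (gam (Fin N))) (slotLaw (T + 1) N) := by
      have he : (fun w : (Fin T → Fin N → ℝ) × (Fin N → ℝ) =>
          (Fin.cons w.2 w.1 : Fin (T + 1) → Fin N → ℝ)) =
          (MeasurableEquiv.piFinSuccAbove (fun _ : Fin (T + 1) => Fin N → ℝ) 0).symm ∘ Prod.swap := by
        funext w
        simp [MeasurableEquiv.piFinSuccAbove_symm_apply, Fin.insertNthEquiv, Fin.insertNth_zero']
      rw [he]
      exact h.comp Measure.measurePreserving_swap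
    exact ((MeasurePreserving.id π).prod h2).comp
      (measurePreserving_prodAssoc π (slotLaw T N) (gam (Fin N)))
  have hGc : Integrable (fun z : (Dd × (Fin T → Fin N → ℝ)) × (Fin N → ℝ) =>
      G (z.1.1, Fin.cons z.2 z.1.2)) (ν.prod (gam (Fin N))) := hcons.integrable_comp_of_integrable hGi
  unfold gFree gOver
  rw [← integral_mp hcons (g := G) (measurable_gPhi hH δ a m _), integral_prod _ hGc]
  set c := Up.svar a * δ / 2
  set e3 := 20 * (Real.sqrt δ * (N * a)) ^ 3
  have hiB := integrable_gB (δ := δ) hH ha hm ks k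
  have hiP := integrable_gPhi (δ := δ) hH ha hm ks
  have hi1 : Integrable (fun z => c * (N * (1 - gB H δ a m ks k z))) ν :=
    ((((integrable_const (1 : ℝ)).sub hiB).const_mul _).const_mul _)
  have h := integral_mono
    (f := fun z => gPhi H δ a m ks z + c * (N * (1 - gB H δ a m ks k z)) - e3)
    ((hiP.add hi1).sub (integrable_const _)) hGc.integral_prod_left fun z => by
      have h := Sphere.Up.fieldStep (slotLaw T N) tilt_factor hm (slotDir_mono k)
        (slotDir_nonneg k 0) hδ ha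
        (wbdd_slotW (δ := δ) (H := H) ha ks z.1 z.2) hN
        (by rw [fieldLen_slotDir, one_mul]; exact hsmall)
      simp only [hG, fieldLen_slotDir, one_mul, slotDir_last, mul_left_comm (weight m _)] at h
      exact h
  rw [integral_sub (f := fun z => gPhi H δ a m ks z +
      c * (N * (1 - gB H δ a m ks k z))) (hiP.add hi1) (integrable_const _),
    integral_add hiP hi1, integral_const_mul, integral_const_mul,
    integral_sub (integrable_const _) hiB] at h
  simp only [integral_const, probReal_univ, one_smul] at h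
  exact h

end Vale.Agent.P166.Haar2.Slots
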