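import Vale.Agent.P157.Full.BaseFacts
import Vale.Agent.P157.Full.Trunc
import Vale.Agent.P166.Haar2.Slots.Gain

/-!
Truncated cascades carry the slots in the limit, over an arbitrary disorder.
-/

noncomputable section

open MeasureTheory ProbabilityTheory Filter
open scoped BigOperators Topology

namespace Vale.Agent.P166.Haar2.Slots

set_option linter.unusedSectionVars false

open Vale.Agent.P157 (gam)
open Vale.Agent.P157.Parisi
open Vale.Agent.P157.Parisi.Full (slotX slotW slotLaw slotDir tailSum slotDir_mono slotDir_nonneg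
  slotDir_le_one slotDir_last fieldLen_slotDir abs_slotX_le measurable_slotX truncV truncBase magSq
  massSq treeW magSq_le sq_bounds)
open Vale.Agent.P157.Parisi.Up (Node node comp leafVec)
open Vale.Agent.P168 (genNested CascTree cascLaw cascSum cascMean cascFilter)
open Vale.Agent.P168.Cascade
open Vale.Agent.P168.Upper (integral_mp cascFilter_neBot)

variable {Dd : Type} [MeasurableSpace Dd] {r N T : ℕ} {P : Sphere.Pts N}
  {π : Measure Dd} [IsProbabilityMeasure π] {H : Dd → Sphere.Conf P → ℝ} {δ a : ℝ}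
  {m : Fin r → ℝ} {n : Fin r → ℕ} {ks : Fin T → Fin (r + 1)}

/-- The log-partition function on a truncated cascade. -/
def gPsi (H : Dd → Sphere.Conf P → ℝ) (δ a : ℝ) (m : Fin r → ℝ) (ks : Fin T → Fin (r + 1))
    (n : Fin r → ℕ) (w : Dd × (Fin T → Fin N → ℝ) × CascTree (Fin T → Fin N → ℝ) r n) : ℝ :=
  Real.log (∑ σ, truncV δ a m ks n w.2 σ * Real.exp (H w.1 σ))

/-- The weights on a truncated cascade. -/
def gWt (H : Dd → Sphere.Conf P → ℝ) (δ a : ℝ) (m : Fin r → ℝ) (ks : Fin T → Fin (r + 1))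
    (n : Fin r → ℕ) (w : Dd × (Fin T → Fin N → ℝ) × CascTree (Fin T → Fin N → ℝ) r n)
    (σ : Sphere.Conf P) : ℝ :=
  truncV δ a m ks n w.2 σ * Real.exp (H w.1 σ) /
    ∑ τ, truncV δ a m ks n w.2 τ * Real.exp (H w.1 τ)

/-- The mean excess of the overlap of two replicas on a truncated cascade. -/
def gRep (H : Dd → Sphere.Conf P → ℝ) (δ a : ℝ) (m : Fin r → ℝ) (ks : Fin T → Fin (r + 1))
    (n : Fin r → ℕ) (b : ℝ)
    (w : Dd × (Fin T → Fin N → ℝ) × CascTree (Fin T → Fin N → ℝ) r n) : ℝ :=
  ∑ σ : Fin 2 → Sphere.Conf P,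
    (∏ l, gWt H δ a m ks n w (σ l)) * max (Sphere.overlap (σ 0) (σ 1) - b) 0

/-- The weights at given disorder and root variables. -/
abbrev wH (H : Dd → Sphere.Conf P → ℝ) (δ a : ℝ) (ks : Fin T → Fin (r + 1))
    (z : Dd × (Fin T → Fin N → ℝ)) :
    Sphere.Conf P → (Fin r → Fin T → Fin N → ℝ) → ℝ :=
  slotW δ a ks (H z.1) z.2

lemma measurable_sqs (hH : HOK π H) (δ a : ℝ) (ks : Fin T → Fin (r + 1)) (m : Fin r → ℝ) (n : Fin r → ℕ) (k : Fin (r + 1)) :
    Measurable (fun z : (Dd × (Fin T → Fin N → ℝ)) × CascTree (Fin T → Fin N → ℝ) r n =>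
        magSq (wH H δ a ks z.1) m n k z.2) ∧
      Measurable fun z : (Dd × (Fin T → Fin N → ℝ)) × CascTree (Fin T → Fin N → ℝ) r n =>
        massSq (wH H δ a ks z.1) m n k z.2 := by
  have hw := fun σ => measW_slotW hH δ a ks σ
  have hW : Measurable (Function.uncurry fun (z : Dd × (Fin T → Fin N → ℝ))
      (η : Fin r → Fin T → Fin N → ℝ) => ∑ σ, wH H δ a ks z σ η) :=
    Finset.measurable_sum _ fun σ _ => hw σ
  have hc : ∀ (g : (Dd × (Fin T → Fin N → ℝ)) → (Fin r → Fin T → Fin N → ℝ) → ℝ),
      Measurable (Function.uncurry g) → ∀ c, Measurable fun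
        z : (Dd × (Fin T → Fin N → ℝ)) × CascTree (Fin T → Fin N → ℝ) r n =>
          comp m n (slotDir k) (fun η => ∑ σ, wH H δ a ks z.1 σ η) (g z.1) z.2 c := by
    intro g hg c
    exact (Finset.measurable_sum _ fun l _ => ((measurable_leafW r m n l).comp measurable_snd).mul
      ((hg.comp (measurable_fst.prodMk ((measurable_leafMarks r n l).comp measurable_snd))).mul_const
        (leafVec n (slotDir k) l c))).div (Up.measurable_cascSum_param m n hW)
  refine ⟨Finset.measurable_sum _ fun i _ => Finset.measurable_sum _ fun c _ =>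
    (hc (fun z => Sphere.Up.mag (wH H δ a ks z) i) ?_ c).pow_const 2,
    Finset.measurable_sum _ fun c _ => (hc _ hW c).pow_const 2⟩
  exact Finset.measurable_sum (f := fun σ => fun z : (Dd × (Fin T → Fin N → ℝ)) ×
      (Fin r → Fin T → Fin N → ℝ) => wH H δ a ks z.1 σ z.2 * Sphere.unitVec σ i)
    Finset.univ fun σ _ => (hw σ).mul_const (Sphere.unitVec σ i)

/-- The truncation is not felt. -/
lemma truncV_mul (ha : 0 ≤ a) (hn : ∀ i, 0 < n i) (d : Dd) (E : Fin T → Fin N → ℝ)
    {t : CascTree (Fin T → Fin N → ℝ) r n} (ht : GoodTree r n t) (σ : Sphere.Conf P) :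
    truncV δ a m ks n (E, t) σ * Real.exp (H d σ) =
      cascMean m n (slotW δ a ks (H d) E σ) t := by
  set M := (T : ℝ) * (Real.sqrt δ * (N * a))
  have hY : Bdd (Real.exp M) fun η => Real.exp (slotX δ a ks E σ η) :=
    ⟨Real.exp_pos _, ((measurable_slotX δ a ks σ).comp measurable_prodMk_left).exp, fun η => by
      obtain ⟨h1, h2⟩ := abs_le.1 (abs_slotX_le (δ := δ) ha ks E σ η)
      rw [← Real.exp_neg]
      exact ⟨Real.exp_le_exp.2 h1, Real.exp_le_exp.2 h2⟩⟩
  have h1 := (cascSum_pos hY m hn ht).2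
  have h0 := cascSum_one_pos m hn ht
  have h3 := Up.abs_log_cascMean_le hY m n ht
  rw [Real.log_exp, abs_of_nonneg (by positivity : 0 ≤ M)] at h3
  have hc : (0 < cascSum r m n (fun η => Real.exp (slotX δ a ks E σ η)) t ∧
      0 < cascSum r m n (fun _ => 1) t ∧
      |Real.log (cascSum r m n (fun η => Real.exp (slotX δ a ks E σ η)) t /
        cascSum r m n (fun _ => 1) t)| ≤ T * (Real.sqrt δ * (N * |a|))) :=
    ⟨h1, h0, by rw [abs_of_nonneg ha]; exact h3⟩
  simp only [truncV]
  rw [if_pos hc, cascMean,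
    show slotW δ a ks (H d) E σ = fun η =>
      Real.exp (H d σ) / P.K * Real.exp (slotX δ a ks E σ η) from
      funext fun η => by simp only [slotW, Real.exp_add]; ring, cascSum_smul]
  ring

lemma trunc_weights (ha : 0 ≤ a) (hn : ∀ i, 0 < n i) (d : Dd) (E : Fin T → Fin N → ℝ)
    {t : CascTree (Fin T → Fin N → ℝ) r n} (ht : GoodTree r n t) :
    gPsi H δ a m ks n (d, E, t) = Real.log
        (cascMean m n (fun η => ∑ σ, slotW δ a ks (H d) E σ η) t) ∧
      ∀ σ, truncV δ a m ks n (E, t) σ * Real.exp (H d σ) /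
          ∑ τ : Sphere.Conf P,
            truncV δ a m ks n (E, t) τ * Real.exp (H d τ) =
        treeW (wH H δ a ks (d, E)) m n t σ := by
  have hsum : ∑ τ : Sphere.Conf P,
      truncV δ a m ks n (E, t) τ * Real.exp (H d τ) =
      cascMean m n (fun η => ∑ σ, slotW δ a ks (H d) E σ η) t := by
    simp only [truncV_mul ha hn d E ht, cascMean, ← Finset.sum_div, cascSum_eq_sum_leaves,
      Finset.mul_sum]
    rw [Finset.sum_comm]
  refine ⟨congrArg Real.log hsum, fun σ => ?_⟩
  rw [hsum, truncV_mul ha hn d E ht, cascMean, cascMean,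
    div_div_div_cancel_right₀ (cascSum_one_pos m hn ht).ne']
  rfl

/-- The mean free energy on a tree, at given disorder and root variables. -/
def treeFree (H : Dd → Sphere.Conf P → ℝ) (δ a : ℝ) (m : Fin r → ℝ) (ks : Fin T → Fin (r + 1)) (n : Fin r → ℕ) (z : Dd × (Fin T → Fin N → ℝ)) : ℝ :=
  ∫ t, Real.log (cascMean m n (fun η => ∑ σ, wH H δ a ks z σ η) t)
    ∂cascLaw (slotLaw T N) r n

lemma measurable_treeLog (hH : HOK π H) (δ a : ℝ) (ks : Fin T → Fin (r + 1)) (m : Fin r → ℝ) (n : Fin r → ℕ) :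
    Measurable fun w : (Dd × (Fin T → Fin N → ℝ)) × CascTree (Fin T → Fin N → ℝ) r n =>
      Real.log (cascMean m n (fun η => ∑ σ, wH H δ a ks w.1 σ η) w.2) := by
  have hW : Measurable (Function.uncurry fun (z : Dd × (Fin T → Fin N → ℝ))
      (η : Fin r → Fin T → Fin N → ℝ) => ∑ σ, wH H δ a ks z σ η) :=
    Finset.measurable_sum _ fun σ _ => measW_slotW hH δ a ks σ
  exact ((Up.measurable_cascSum_param m n hW).div (Up.measurable_cascSum_param m n
    (Y := fun _ _ => (1 : ℝ)) measurable_const)).log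

lemma measurable_treeFree (hH : HOK π H) (δ a : ℝ) (m : Fin r → ℝ) (ks : Fin T → Fin (r + 1)) (n : Fin r → ℕ) : Measurable (treeFree H δ a m ks n) :=
  ((measurable_treeLog hH δ a ks m n).stronglyMeasurable.integral_prod_right'
    (ν := cascLaw (slotLaw T N) r n)).measurable

lemma abs_treeLog_le (ha : 0 ≤ a) (m : Fin r → ℝ) (ks : Fin T → Fin (r + 1)) (n : Fin r → ℕ)
    (z : Dd × (Fin T → Fin N → ℝ)) {t : CascTree (Fin T → Fin N → ℝ) r n}
    (ht : GoodTree r n t) :
    |Real.log (cascMean m n (fun η => ∑ σ, wH H δ a ks z σ η) t)| ≤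
      hBd H δ a T z.1 := by
  have h := Up.abs_log_cascMean_le (bdd_slotW_sum (δ := δ) (H := H)
    ha ks z.1 z.2) m n ht
  rwa [Real.log_exp, abs_of_nonneg (hBd_nonneg _)] at h

lemma abs_treeFree_le (ha : 0 ≤ a) (m : Fin r → ℝ) (ks : Fin T → Fin (r + 1)) (n : Fin r → ℕ)
    (z : Dd × (Fin T → Fin N → ℝ)) :
    |treeFree H δ a m ks n z| ≤ hBd H δ a T z.1 := by
  have h := norm_integral_le_of_norm_le_const (μ := cascLaw (slotLaw T N) r n)
    (f := fun t => Real.log (cascMean m n (fun η => ∑ σ, wH H δ a ks z σ η) t))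
    (C := hBd H δ a T z.1) ((ae_good _ r n).mono fun t ht => by
      rw [Real.norm_eq_abs]; exact abs_treeLog_le ha m ks n z ht)
  simp only [probReal_univ, mul_one, Real.norm_eq_abs] at h
  exact h

lemma integral_treeFree (hH : HOK π H) (ha : 0 ≤ a) (hn : ∀ i, 0 < n i)
    (ks : Fin T → Fin (r + 1)) (d : Dd) :
    ∫ E, treeFree H δ a m ks n (d, E) ∂slotLaw T N =
      ∫ ω, gPsi H δ a m ks n (d, ω) ∂(truncBase P δ a m ks n).law := by
  set F : (Fin T → Fin N → ℝ) × CascTree (Fin T → Fin N → ℝ) r n → ℝ := fun ω =>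
    Real.log (cascMean m n (fun η => ∑ σ, wH H δ a ks (d, ω.1) σ η) ω.2)
  have hpair : Measurable fun ω : (Fin T → Fin N → ℝ) × CascTree (Fin T → Fin N → ℝ) r n =>
      ((d, ω.1), ω.2) := (measurable_const.prodMk measurable_fst).prodMk measurable_snd
  have hFm : Measurable F := by
    have h := (measurable_treeLog hH δ a ks m n).comp hpair
    exact h
  have hgood : ∀ᵐ ω ∂(slotLaw T N).prod (cascLaw (slotLaw T N) r n), GoodTree r n ω.2 :=
    Measure.quasiMeasurePreserving_snd.ae (ae_good _ r n)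
  have hFi : Integrable F ((slotLaw T N).prod (cascLaw (slotLaw T N) r n)) :=
    Integrable.of_bound hFm.aestronglyMeasurable (hBd H δ a T d) (hgood.mono fun ω hω => by
      rw [Real.norm_eq_abs]; exact abs_treeLog_le ha m ks n (d, ω.1) hω)
  exact (integral_prod _ hFi).symm.trans (integral_congr_ae (hgood.mono fun ω hω =>
    (trunc_weights (H := H) ha hn d ω.1 hω).1.symm))

lemma trunc_free (hH : HOK π H) (hm : Exps m) (ha : 0 ≤ a) (ks : Fin T → Fin (r + 1))
    :
    Tendsto (fun n => ∫ d, ∫ ω, gPsi H δ a m ks n (d, ω) ∂(truncBase P δ a m ks n).law ∂π) (cascFilter r)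
      (𝓝 (gFree π H δ a m ks)) := by
  have hbi : Integrable (fun z : Dd × (Fin T → Fin N → ℝ) => hBd H δ a T z.1)
      (π.prod (slotLaw T N)) := (integrable_hBd hH δ a T).comp_fst _
  have hlim := Vale.Agent.P168.States.tendsto_integral_cascFilter
    (μ := π.prod (slotLaw T N)) (g := fun n => treeFree H δ a m ks n)
    (f := gPhi H δ a m ks) (measurable_treeFree hH δ a m ks)
    (measurable_gPhi hH δ a m ks)
    ((measurable_hBd hH δ a T).comp measurable_fst) hbi
    (Eventually.of_forall fun n => Eventually.of_forall (abs_treeFree_le ha m ks n))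
    (Eventually.of_forall (abs_gPhi_le ha hm ks))
    (Eventually.of_forall fun z =>
      have hY := bdd_slotW_sum (δ := δ) (H := H) ha ks z.1 z.2
      cascadeLog (Fin T → Fin N → ℝ) (slotLaw T N) r m hm.pos hm.lt_one hm.mono _ _
        hY.pos hY.meas hY.mem)
  refine hlim.congr' ((eventually_pos r).mono fun n hn => ?_)
  have hgi : Integrable (treeFree H δ a m ks n) (π.prod (slotLaw T N)) :=
    hbi.mono' (measurable_treeFree hH δ a m ks n).aestronglyMeasurable
      (Eventually.of_forall fun z => by rw [Real.norm_eq_abs]; exact abs_treeFree_le ha m ks n z)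
  rw [integral_prod _ hgi]
  exact integral_congr_ae (Eventually.of_forall fun d => integral_treeFree hH ha hn ks d)

lemma integrable_gPsi (hH : HOK π H) (n : Fin r → ℕ) :
    Integrable (gPsi H δ a m ks n) (π.prod (truncBase P δ a m ks n).law) := by
  set B := truncBase P δ a m ks n
  have hb := (((integrable_hBd hH δ a T).comp_fst B.law).add
    (integrable_const (B.bd + |Real.log (Fintype.card (Sphere.Conf P))|)))
  have hm' : Measurable (gPsi H δ a m ks n) := (Finset.measurable_sum _ fun σ _ =>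
    ((B.meas σ).comp measurable_snd).mul ((hH.meas σ).comp measurable_fst).exp).log
  refine hb.mono' hm'.aestronglyMeasurable (Eventually.of_forall fun w => ?_)
  have h := Vale.Agent.P168.Limit.SelfAvg.abs_logZ_sub_le' (fun _ : Sphere.Conf P => (0 : ℝ))
    (fun σ => Real.log (B.v w.2 σ) + H w.1 σ) (c := B.bd + hBd H δ a T w.1) fun σ => by
      refine (abs_add_le _ _).trans (add_le_add (B.le_bd _ σ) ?_)
      exact le_add_of_le_of_nonneg (Finset.single_le_sum (f := fun τ => |H w.1 τ|)
        (fun τ _ => abs_nonneg _) (Finset.mem_univ σ)) (by positivity)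
  have h0 : Vale.Agent.P168.Limit.logZ (fun _ : Sphere.Conf P => (0 : ℝ)) =
      Real.log (Fintype.card (Sphere.Conf P)) := by
    simp [Vale.Agent.P168.Limit.logZ]
  have h1 : Vale.Agent.P168.Limit.logZ (fun σ => Real.log (B.v w.2 σ) + H w.1 σ) =
      gPsi H δ a m ks n w := by
    simp only [Vale.Agent.P168.Limit.logZ, gPsi, Real.exp_add]
    exact congrArg Real.log (Finset.sum_congr rfl fun σ _ => by
      rw [Real.exp_log (B.pos _ _)]; rfl)
  simp only [zero_add, h0, h1] at h
  simp only [Pi.add_apply, Real.norm_eq_abs]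
  linarith [abs_sub_abs_le_abs_sub (gPsi H δ a m ks n w) (Real.log (Fintype.card (Sphere.Conf P)))]

lemma trunc_overlap (hH : HOK π H) (hm : Exps m) (ha : 0 ≤ a) (ks : Fin T → Fin (r + 1))
    (k : Fin (r + 1)) {b : ℝ} (hb : 0 ≤ b) {ε : ℝ} (hε : 0 < ε) :
    ∀ᶠ n in cascFilter r, gOver π H δ a m ks k ≤
      (∫ w, gRep H δ a m ks n b w ∂π.prod (truncBase P δ a m ks n).law) + b * tailSum m (fun _ => 1) k + ε := by
  set ν := π.prod (slotLaw T N) with hν
  set tail := tailSum m (fun _ => 1) k
  set g : (Fin r → ℕ) → Dd × (Fin T → Fin N → ℝ) → ℝ := fun n z =>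
    ∫ t, (magSq (wH H δ a ks z) m n k t - b * massSq (wH H δ a ks z) m n k t)
      ∂cascLaw (slotLaw T N) r n
  have hgm : ∀ n, Measurable (g n) := fun n =>
    (((measurable_sqs hH δ a ks m n k).1.sub
      ((measurable_sqs hH δ a ks m n k).2.const_mul b)).stronglyMeasurable.integral_prod_right'
        (ν := cascLaw (slotLaw T N) r n)).measurable
  have hpt : ∀ n, (∀ i, 0 < n i) → ∀ z t, GoodTree r n t →
      |magSq (wH H δ a ks z) m n k t - b * massSq (wH H δ a ks z) m n k t| ≤
        1 + b := fun n hn z t ht => by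
    obtain ⟨h1, h2, h3, h4⟩ :=
      sq_bounds (m := m) (wbdd_slotW (δ := δ) (H := H) ha ks z.1 z.2) hn ht k
    rw [abs_le]
    constructor <;> nlinarith
  have hbd : ∀ n, (∀ i, 0 < n i) → ∀ z, |g n z| ≤ N + (1 + b) := fun n hn z => by
    have h := norm_integral_le_of_norm_le_const (μ := cascLaw (slotLaw T N) r n)
      (f := fun t => magSq (wH H δ a ks z) m n k t -
        b * massSq (wH H δ a ks z) m n k t)
      (C := 1 + b) ((ae_good _ r n).mono fun t ht => by
        rw [Real.norm_eq_abs]; exact hpt n hn z t ht)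
    simp only [probReal_univ, mul_one, Real.norm_eq_abs] at h
    exact h.trans (le_add_of_nonneg_left (Nat.cast_nonneg _))
  have htail : |tail| ≤ 1 := by
    refine (Finset.abs_sum_le_sum_abs _ _).trans ((Finset.sum_le_sum (g := weight m)
      fun p _ => ?_).trans (Up.sum_weight m).le)
    rw [mul_one, abs_mul, abs_of_nonneg (slotDir_nonneg k p),
      abs_of_nonneg (Up.weight_nonneg hm p)]
    exact mul_le_of_le_one_left (Up.weight_nonneg hm p) (slotDir_le_one k p)
  have hlim := Vale.Agent.P168.States.tendsto_integral_cascFilter (μ := ν) (g := g)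
    (f := fun z => gB H δ a m ks k z - b * tail) (B := fun _ => (N : ℝ) + (1 + b))
    hgm ((measurable_gB hH δ a m ks k).sub_const _) measurable_const (integrable_const _)
    ((eventually_pos r).mono fun n hn => Eventually.of_forall (hbd n hn))
    (Eventually.of_forall fun z => by
      have h := abs_gB_le (δ := δ) (H := H) ha hm ks k z
      have hbt := mul_le_mul_of_nonneg_left htail hb
      refine (abs_sub _ _).trans (add_le_add h ?_)
      rw [abs_mul, abs_of_nonneg hb]
      linarith)
    (Eventually.of_forall fun z => by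
      have hw := wbdd_slotW (δ := δ) (H := H) ha ks z.1 z.2
      have hW := Sphere.Up.bdd_sum hw
      have hmag := fun i η => (Sphere.Up.abs_mag_le hw i η).trans (hW.mem η).2
      have hmass : ∀ η, |∑ σ, wH H δ a ks z σ η| ≤ _ := fun η =>
        (abs_of_pos (hW.gt_zero η)).trans_le (hW.mem η).2
      have l1 := tendsto_finsetSum Finset.univ fun i (_ : i ∈ Finset.univ) =>
        Up.tendsto_sumSq tilt_factor (slotLaw T N) hm (slotDir_mono k) (slotDir_nonneg k 0) hW
          (Sphere.Up.measurable_mag hw i) hW.pos.le (hmag i)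
      have l2 := Up.tendsto_sumSq tilt_factor (slotLaw T N) hm (slotDir_mono k)
        (slotDir_nonneg k 0) hW hW.meas hW.pos.le hmass
      have hl := l1.sub (l2.const_mul b)
      have hl' : Tendsto (fun n => g n z) (cascFilter r) _ :=
        hl.congr' ((eventually_pos r).mono fun n hn => ?_)
      swap
      · have hiF : ∀ i, Integrable (fun t => ∑ c, comp m n (slotDir k)
            (fun η => ∑ σ, wH H δ a ks z σ η) (Sphere.Up.mag (wH H δ a ks z) i) t c ^ 2)
            (cascLaw (slotLaw T N) r n) := fun i =>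
          Up.integrable_sumSq (slotLaw T N) hn _ hW (Sphere.Up.measurable_mag hw i) (hmag i)
        have hiG := Up.integrable_sumSq (slotLaw T N) (m := m) hn (slotDir k) hW hW.meas hmass
        simp only [g, magSq, massSq]
        rw [integral_sub (integrable_finsetSum _ fun i _ => hiF i) (hiG.const_mul b),
          integral_finsetSum _ fun i _ => hiF i, integral_const_mul]
      · refine Eq.mp (congrArg (fun L => Tendsto (fun n => g n z) (cascFilter r) (𝓝 L)) ?_) hl'
        simp only [Up.pairM_self (slotLaw T N) hm hW, tail, gB, tailSum, Sphere.Up.bVal]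
        rw [Finset.sum_comm]
        congr 1
        · refine Finset.sum_congr rfl fun p _ => ?_
          rw [← Finset.mul_sum, ← Finset.mul_sum]
          ring
        · congr 1
          exact Finset.sum_congr rfl fun p _ => by ring)
  have hiB := integrable_gB (δ := δ) hH ha hm ks k
  rw [integral_sub hiB (integrable_const _), integral_const, probReal_univ, one_smul] at hlim
  filter_upwards [eventually_pos r, hlim (Ioi_mem_nhds (sub_lt_self _ hε))] with n hn hgt
  have hgt' : gOver π H δ a m ks k - b * tail - ε < ∫ z, g n z ∂ν := hgt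
  suffices h : ∫ z, g n z ∂ν ≤ (∫ w, gRep H δ a m ks n b w ∂π.prod (truncBase P δ a m ks n).law) by linarith
  set C := cascLaw (slotLaw T N) r n
  have hass := measurePreserving_prodAssoc π (slotLaw T N) C
  set R : Dd × ((Fin T → Fin N → ℝ) × CascTree (Fin T → Fin N → ℝ) r n) → ℝ := fun z =>
    ∑ σ : Fin 2 → Sphere.Conf P,
      (∏ l, gWt H δ a m ks n z (σ l)) *
        max (Sphere.overlap (σ 0) (σ 1) - b) 0
  have hwm : ∀ σ, Measurable fun z : Dd × ((Fin T → Fin N → ℝ) ×
      CascTree (Fin T → Fin N → ℝ) r n) =>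
      (truncBase P δ a m ks n).v z.2 σ * Real.exp (H z.1 σ) := fun σ =>
    (((truncBase P δ a m ks n).meas σ).comp measurable_snd).mul
      ((hH.meas σ).comp measurable_fst).exp
  have hRm : Measurable R := Finset.measurable_sum _ fun σ _ =>
    (Finset.measurable_prod _ fun l _ => (hwm (σ l)).div
      (Finset.measurable_sum _ fun τ _ => hwm τ)).mul_const _
  have hRi : Integrable R (π.prod ((slotLaw T N).prod C)) := by
    refine Integrable.of_bound hRm.aestronglyMeasurable 1 (Eventually.of_forall fun z => ?_)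
    have hv : ∀ σ, 0 < (truncBase P δ a m ks n).v z.2 σ * Real.exp (H z.1 σ) :=
      fun σ => mul_pos ((truncBase P δ a m ks n).pos _ _) (Real.exp_pos _)
    have hS : 0 < ∑ σ, (truncBase P δ a m ks n).v z.2 σ * Real.exp (H z.1 σ) :=
      Finset.sum_pos (fun σ _ => hv σ) Finset.univ_nonempty
    have hw0 : ∀ σ, 0 ≤ gWt H δ a m ks n z σ := fun σ =>
      div_nonneg (hv σ).le hS.le
    have h1 : ∑ σ, gWt H δ a m ks n z σ = 1 := by
      show ∑ σ, _ / _ = 1
      rw [← Finset.sum_div]
      exact div_self hS.ne'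
    rw [Real.norm_eq_abs, abs_of_nonneg (Finset.sum_nonneg fun σ _ =>
      mul_nonneg (Finset.prod_nonneg fun l _ => hw0 _) (le_max_right _ _))]
    refine (Finset.sum_le_sum fun σ _ => mul_le_of_le_one_right
      (Finset.prod_nonneg fun l _ => hw0 _) (max_le ?_ zero_le_one)).trans_eq ?_
    · linarith [(abs_le.1 (Sphere.Main.abs_overlap_le (σ 0) (σ 1))).2]
    · rw [← Fintype.prod_sum (fun (_ : Fin 2) τ => gWt H δ a m ks n z τ)]
      simp [h1]
  set Hf : (Dd × (Fin T → Fin N → ℝ)) × CascTree (Fin T → Fin N → ℝ) r n → ℝ := fun z =>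
    magSq (wH H δ a ks z.1) m n k z.2 - b * massSq (wH H δ a ks z.1) m n k z.2
  have hgood : ∀ᵐ z ∂ν.prod C, GoodTree r n z.2 :=
    Measure.quasiMeasurePreserving_snd.ae (ae_good _ r n)
  have hHi : Integrable Hf (ν.prod C) :=
    Integrable.of_bound ((measurable_sqs hH δ a ks m n k).1.sub
      ((measurable_sqs hH δ a ks m n k).2.const_mul b)).aestronglyMeasurable (1 + b)
      (hgood.mono fun z hz => by rw [Real.norm_eq_abs]; exact hpt n hn z.1 z.2 hz)
  calc ∫ z, g n z ∂ν = ∫ z, Hf z ∂ν.prod C := (integral_prod Hf hHi).symm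
    _ ≤ ∫ z, R (z.1.1, z.1.2, z.2) ∂ν.prod C := by
        refine integral_mono_ae hHi (hass.integrable_comp_of_integrable hRi) (hgood.mono fun z hz => ?_)
        have hkey := (magSq_le (m := m) (wbdd_slotW (δ := δ) (H := H)
          ha ks z.1.1 z.1.2) hn hz k b).1
        have hw : ∀ σ, gWt H δ a m ks n (z.1.1, z.1.2, z.2) σ =
            treeW (wH H δ a ks z.1) m n z.2 σ :=
          (trunc_weights (H := H) ha hn z.1.1 z.1.2 hz).2
        have hR : R (z.1.1, z.1.2, z.2) = ∑ σ, ∑ τ, treeW (wH H δ a ks z.1) m n z.2 σ *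
            treeW (wH H δ a ks z.1) m n z.2 τ * max (Sphere.overlap σ τ - b) 0 := by
          simp only [R, Fin.prod_univ_two]
          rw [← (piFinTwoEquiv fun _ => Sphere.Conf P).symm.sum_comp, Fintype.sum_prod_type]
          simp only [piFinTwoEquiv_symm_apply, Fin.cons_zero, Fin.cons_one]
          exact Finset.sum_congr rfl fun σ _ => Finset.sum_congr rfl fun τ _ =>
            congrArg (· * max (Sphere.overlap σ τ - b) 0) (congrArg₂ (· * ·) (hw σ) (hw τ))
        simp only [hR, Hf]
        linarith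
    _ = _ := integral_mp hass hRm

end Vale.Agent.P166.Haar2.Slots
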