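import Vale.Agent.P166.Haar2.Statements
import Vale.Agent.P166.Haar2.Slots.Trunc

/-!
The slots for systems in Haar position: the truncated cascades carry them in the limit, and one
more slot gains.
-/

noncomputable section

open MeasureTheory ProbabilityTheory Filter
open scoped BigOperators Topology

namespace Vale.Agent.P166.Haar2.Slots

open Vale.Agent.P157 (gam)
open Vale.Agent.P157.Parisi (Cube unitVec scale)
open Vale.Agent.P157.Parisi.Sphere (Conf)
open Vale.Agent.P157.Parisi.Full (cubePts slotLaw tailSum truncBase)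
open Vale.Agent.P168 (cascFilter)
open Vale.Agent.P168.Cascade (Exps)
open Vale.Agent.P168.Limit (logZ gw rav)

variable {N G L T r : ℕ}

/-- The law of the rotation and the Gaussian variables. -/
def ujLaw (G N L : ℕ) : Measure (OG N × (PIdx G N L → ℝ)) :=
  (orthHaar N).prod (gam (PIdx G N L))

instance : IsProbabilityMeasure (orthHaar N) := haarP_prob

instance : IsProbabilityMeasure (ujLaw G N L) := by unfold ujLaw; infer_instance

/-- The Hamiltonian on the cube as a family of points. -/
def confH (P : Sys N G) (s : ℝ) (x : Fin L → ℝ) (d : OG N × (PIdx G N L → ℝ))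
    (k : Conf (cubePts N)) : ℝ :=
  P.ham0 s x d.1 d.2 (ofConf k)

lemma continuous_rot (σ : Cube N) (i : Fin N) : Continuous fun U : OG N => rot U σ i :=
  (continuous_apply i).comp (continuous_act (spin σ))

lemma continuous_feat (P : Sys N G) (σ : Cube N) (c : PIdx G N L) :
    Continuous fun U : OG N => P.feat U σ c := by
  refine continuous_finsetProd _ fun p _ => ?_
  by_cases h : c.2 p ∈ P.S p.1
  · simp only [if_pos h]
    exact (continuous_rot σ _).div_const _
  · simp only [if_neg h]
    exact continuous_const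

lemma integrable_cont {F : OG N → ℝ} (hF : Continuous F) : Integrable F (orthHaar N) := by
  obtain ⟨C, hC⟩ := isCompact_univ.exists_bound_of_continuousOn hF.continuousOn
  exact Integrable.of_bound hF.measurable.aestronglyMeasurable C
    (Eventually.of_forall fun U => hC U (Set.mem_univ U))

lemma hok (P : Sys N G) (s : ℝ) (x : Fin L → ℝ) : HOK (ujLaw G N L) (confH P s x) := by
  have hq : ∀ σ : Cube N, Continuous fun U : OG N => 1 / 2 * (∑ i, P.lam i * rot U σ i ^ 2) :=
    fun σ => continuous_const.mul (continuous_finsetSum _ fun i _ =>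
      continuous_const.mul ((continuous_rot σ i).pow 2))
  have hc : ∀ (σ : Cube N) (c : PIdx G N L),
      Continuous fun U : OG N => s * x c.1 * coef G c.1.val * P.feat U σ c :=
    fun σ c => continuous_const.mul (continuous_feat P σ c)
  refine ⟨fun k => ?_, fun k => ?_⟩
  · exact ((hq _).measurable.comp measurable_fst).add (Finset.measurable_sum _ fun c _ =>
      ((measurable_pi_apply c).comp measurable_snd).mul ((hc _ c).measurable.comp measurable_fst))
  · refine ((integrable_cont (hq (ofConf k))).comp_fst _).add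
      (integrable_finsetSum _ fun c _ => ?_)
    have h := (integrable_cont (hc (ofConf k) c)).mul_prod
      (Vale.Agent.P168.Toolkit.integrable_eval_gaussPi c : Integrable _ (gam (PIdx G N L)))
    exact h.congr (Eventually.of_forall fun z => mul_comm _ _)

lemma slotFree_eq (P : Sys N G) (s : ℝ) (x : Fin L → ℝ) {δ a : ℝ} (ha : 0 ≤ a) {m : Fin r → ℝ}
    (hm : Exps m) (ks : Fin T → Fin (r + 1)) :
    P.slotFree s x δ a m ks = gFree (ujLaw G N L) (confH P s x) δ a m ks := by
  have h : Integrable (gPhi (confH P s x) δ a m ks) ((ujLaw G N L).prod (slotLaw T N)) :=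
    integrable_gPhi (hok P s x) ha hm ks
  rw [gFree, integral_prod _ h]
  exact (integral_prod _ h.integral_prod_left).symm

lemma slotOverlap_eq (P : Sys N G) (s : ℝ) (x : Fin L → ℝ) {δ a : ℝ} (ha : 0 ≤ a)
    {m : Fin r → ℝ} (hm : Exps m) (ks : Fin T → Fin (r + 1)) (k : Fin (r + 1)) :
    P.slotOverlap s x δ a m ks k = gOver (ujLaw G N L) (confH P s x) δ a m ks k := by
  have h : Integrable (gB (confH P s x) δ a m ks k) ((ujLaw G N L).prod (slotLaw T N)) :=
    integrable_gB (hok P s x) ha hm ks k
  rw [gOver, integral_prod _ h]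
  exact (integral_prod _ h.integral_prod_left).symm

lemma ofConf_toConf (σ : Cube N) : ofConf (toConf σ) = σ :=
  (Fintype.equivFin (Cube N)).symm_apply_apply σ

lemma exp_ham (P : Sys N G) (s : ℝ) (x : Fin L → ℝ)
    (B : Vale.Agent.P157.Parisi.Full.Base (cubePts N)) (z : Dz G L (RBase.ofBase B)) (σ : Cube N) :
    Real.exp (P.ham s x (RBase.ofBase B) z σ) =
      B.v z.2.2 (toConf σ) * Real.exp (confH P s x (z.1, z.2.1) (toConf σ)) := by
  simp only [Sys.ham, RBase.ofBase, confH, ofConf_toConf, Real.exp_add]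
  rw [Real.exp_log (B.pos _ _)]

lemma sum_exp_ham (P : Sys N G) (s : ℝ) (x : Fin L → ℝ)
    (B : Vale.Agent.P157.Parisi.Full.Base (cubePts N)) (z : Dz G L (RBase.ofBase B)) :
    ∑ σ, Real.exp (P.ham s x (RBase.ofBase B) z σ) =
      ∑ k : Conf (cubePts N), B.v z.2.2 k * Real.exp (confH P s x (z.1, z.2.1) k) :=
  Fintype.sum_equiv (Fintype.equivFin (Cube N)) _ _ fun σ => exp_ham P s x B z σ

lemma overlap_toConf (σ τ : Cube N) :
    Vale.Agent.P157.Parisi.Sphere.overlap (P := cubePts N) (toConf σ) (toConf τ) =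
      Vale.Agent.P157.Parisi.overlap σ τ := by
  have hu : ∀ ρ : Cube N, Vale.Agent.P157.Parisi.Sphere.unitVec (P := cubePts N) (toConf ρ) =
      unitVec ρ := fun ρ => congrArg unitVec (ofConf_toConf ρ)
  simp only [Vale.Agent.P157.Parisi.Sphere.overlap, Vale.Agent.P157.dot, hu, unitVec,
    Vale.Agent.P157.Parisi.overlap, Finset.sum_div]
  refine Finset.sum_congr rfl fun i _ => ?_
  rw [div_mul_div_comm, Real.mul_self_sqrt (Nat.cast_nonneg N)]

variable {δ a : ℝ} {m : Fin r → ℝ} {ks : Fin T → Fin (r + 1)}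

lemma logZ_ham (P : Sys N G) (s : ℝ) (x : Fin L → ℝ) (n : Fin r → ℕ)
    (z : Dz G L (slotBase N δ a m ks n)) :
    logZ (P.ham s x (slotBase N δ a m ks n) z) =
      gPsi (confH P s x) δ a m ks n ((z.1, z.2.1), z.2.2) :=
  congrArg Real.log (sum_exp_ham P s x (truncBase (cubePts N) δ a m ks n) z)

lemma rav_ham (P : Sys N G) (s : ℝ) (x : Fin L → ℝ) (n : Fin r → ℕ) (b : ℝ)
    (z : Dz G L (slotBase N δ a m ks n)) :
    rav 2 (P.ham s x (slotBase N δ a m ks n) z) (fun σ =>
        max (Vale.Agent.P157.Parisi.overlap (σ 0) (σ 1) - b) 0) =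
      gRep (confH P s x) δ a m ks n b ((z.1, z.2.1), z.2.2) := by
  have hw : ∀ σ : Cube N, gw (P.ham s x (slotBase N δ a m ks n) z) σ =
      gWt (confH P s x) δ a m ks n ((z.1, z.2.1), z.2.2) (toConf σ) := fun σ =>
    congrArg₂ (· / ·) (exp_ham P s x (truncBase (cubePts N) δ a m ks n) z σ)
      (sum_exp_ham P s x (truncBase (cubePts N) δ a m ks n) z)
  refine Fintype.sum_equiv (Equiv.arrowCongr (Equiv.refl (Fin 2)) (Fintype.equivFin (Cube N))) _ _
    fun σ => ?_
  simp only [hw, ← overlap_toConf]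
  rfl

lemma dz_integral (B : Vale.Agent.P157.Parisi.Full.Base (cubePts N))
    (F : Dz G L (RBase.ofBase B) → ℝ) :
    ∫ z, F z ∂dzLaw G L (RBase.ofBase B) =
      ∫ w, F (w.1.1, w.1.2, w.2) ∂(ujLaw G N L).prod B.law :=
  ((measurePreserving_prodAssoc (orthHaar N) (gam (PIdx G N L)) B.law).integral_comp' F).symm

lemma free_slot (P : Sys N G) (s : ℝ) (x : Fin L → ℝ) (n : Fin r → ℕ) :
    P.free s x (slotBase N δ a m ks n) =
      ∫ d, ∫ ω, gPsi (confH P s x) δ a m ks n (d, ω)
        ∂(truncBase (cubePts N) δ a m ks n).law ∂ujLaw G N L := by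
  have hi : Integrable (gPsi (confH P s x) δ a m ks n)
      ((ujLaw G N L).prod ((slotLaw T N).prod (Vale.Agent.P168.cascLaw (slotLaw T N) r n))) :=
    integrable_gPsi (hok P s x) n
  refine Eq.trans ?_ (integral_prod (ν := (slotLaw T N).prod
    (Vale.Agent.P168.cascLaw (slotLaw T N) r n)) _ hi)
  refine (dz_integral (truncBase (cubePts N) δ a m ks n) _).trans ?_
  exact integral_congr_ae (Eventually.of_forall fun w => logZ_ham P s x n (w.1.1, w.1.2, w.2))

lemma rep_slot (P : Sys N G) (s : ℝ) (x : Fin L → ℝ) (n : Fin r → ℕ) (b : ℝ) :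
    ∫ z, rav 2 (P.ham s x (slotBase N δ a m ks n) z) (fun σ =>
        max (Vale.Agent.P157.Parisi.overlap (σ 0) (σ 1) - b) 0)
        ∂dzLaw G L (slotBase N δ a m ks n) =
      ∫ w, gRep (confH P s x) δ a m ks n b w
        ∂(ujLaw G N L).prod (truncBase (cubePts N) δ a m ks n).law := by
  refine (dz_integral (truncBase (cubePts N) δ a m ks n) _).trans ?_
  exact integral_congr_ae (Eventually.of_forall fun w => rav_ham P s x n b (w.1.1, w.1.2, w.2))

/-- Module M8, first part. -/
theorem slotTrunc : SlotTruncStmt := by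
  intro G N L T r P _ m hm δ a _ ha s x ks
  have hH := hok P s x
  refine ⟨?_, fun k b hb ε hε => ?_⟩
  · rw [slotFree_eq P s x ha hm]
    exact (trunc_free hH hm ha ks).congr fun n => (free_slot P s x n).symm
  · rw [slotOverlap_eq P s x ha hm]
    exact (trunc_overlap hH hm ha ks k hb hε).mono fun n hn =>
      hn.trans_eq (congrArg (fun v => v + b * tailSum m (fun _ => 1) k + ε)
        (rep_slot P s x n b).symm)

/-- Module M8, second part. -/
theorem slotStep : SlotStepStmt := by
  intro G N L T r P hN m hm δ a hδ ha hsmall s x ks k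
  rw [slotFree_eq P s x ha hm, slotFree_eq P s x ha hm, slotOverlap_eq P s x ha hm]
  exact slot_step_gen (hok P s x) hN.ne' hm hδ ha hsmall ks k

end Vale.Agent.P166.Haar2.Slots
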